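import Mathlib

/-!
# P162 (helper51, backup copy of pool leaf CV8): a killed finite Markov chain

A finite Markov chain with transition matrix `K` is killed with probability `1/2` at each
visit to a set `P`.  If returns to `P` are impossible for `m0` steps, unlikely (at most `β`)
afterwards, and the chain started in `P` is in `P` with probability at most `α` after `s1`
steps, then the killed chain is in `P` at time `N` with probability at least the free
probability minus `α / 2 + N β ^ 2 / 2`.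
-/

namespace Vale.Agent.Lib.P162.H51CV

open Finset BigOperators

variable {S : Type*}

/-- The mass that row `a` of `X` gives to the set `P`. -/
def rowP (X : Matrix S S ℝ) (P : Finset S) (a : S) : ℝ := ∑ b ∈ P, X a b

/-- The killed matrix: rows in `P` are multiplied by `1/2`. -/
noncomputable def killM [DecidableEq S] (K : Matrix S S ℝ) (P : Finset S) : Matrix S S ℝ :=
  Matrix.of fun a b => (if a ∈ P then (1 / 2 : ℝ) else 1) * K a b

theorem kl_kill_apply [DecidableEq S] (K : Matrix S S ℝ) (P : Finset S) (a b : S) :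
    killM K P a b = (if a ∈ P then (1 / 2 : ℝ) else 1) * K a b := rfl

theorem kl_kill_nonneg [DecidableEq S] (K : Matrix S S ℝ) (hK0 : ∀ a b, 0 ≤ K a b) (P : Finset S) (a b : S) :
    0 ≤ killM K P a b := by
  rw [kl_kill_apply]
  refine mul_nonneg ?_ (hK0 a b)
  split_ifs <;> norm_num

theorem kl_kill_le [DecidableEq S] (K : Matrix S S ℝ) (hK0 : ∀ a b, 0 ≤ K a b) (P : Finset S) (a b : S) :
    killM K P a b ≤ K a b := by
  rw [kl_kill_apply]
  have h := hK0 a b
  split_ifs
  · linarith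
  · linarith

theorem kl_pow_nonneg [Fintype S] [DecidableEq S] (K : Matrix S S ℝ) (hK0 : ∀ a b, 0 ≤ K a b) :
    ∀ (i : ℕ) (a b : S), 0 ≤ (K ^ i) a b := by
  intro i
  induction i with
  | zero =>
    intro a b
    rw [pow_zero, Matrix.one_apply]
    split_ifs <;> norm_num
  | succ i ih =>
    intro a b
    rw [pow_succ', Matrix.mul_apply]
    exact Finset.sum_nonneg fun c _ => mul_nonneg (hK0 a c) (ih c b)

theorem kl_rowP_nonneg [Fintype S] [DecidableEq S] (K : Matrix S S ℝ) (hK0 : ∀ a b, 0 ≤ K a b) (P : Finset S) (i : ℕ)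
    (a : S) : 0 ≤ rowP (K ^ i) P a :=
  Finset.sum_nonneg fun b _ => kl_pow_nonneg K hK0 i a b

theorem kl_rowP_mul [Fintype S] (X Y : Matrix S S ℝ) (P : Finset S) (a : S) :
    rowP (X * Y) P a = ∑ c, X a c * rowP Y P c := by
  unfold rowP
  calc ∑ b ∈ P, (X * Y) a b = ∑ b ∈ P, ∑ c, X a c * Y c b :=
        Finset.sum_congr rfl fun b _ => Matrix.mul_apply
    _ = ∑ c, ∑ b ∈ P, X a c * Y c b := Finset.sum_comm
    _ = ∑ c, X a c * ∑ b ∈ P, Y c b :=
        Finset.sum_congr rfl fun c _ => (Finset.mul_sum _ _ _).symm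

theorem kl_rowP_one [DecidableEq S] (P : Finset S) (a : S) :
    rowP (1 : Matrix S S ℝ) P a = if a ∈ P then 1 else 0 := by
  unfold rowP
  simp only [Matrix.one_apply, Finset.sum_ite_eq]

/-- The `i = 0` term of the double sum. -/
theorem kl_zero_term [DecidableEq S] (P : Finset S) (a : S) (g : S → ℝ) :
    ∑ π ∈ P, (1 : Matrix S S ℝ) a π * g π = if a ∈ P then g a else 0 := by
  simp only [Matrix.one_apply, ite_mul, one_mul, zero_mul, Finset.sum_ite_eq]

/-- First step decomposition of the shifted double sum. -/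
theorem kl_shift [Fintype S] [DecidableEq S] (K : Matrix S S ℝ) (P : Finset S) (n : ℕ) (a : S) :
    ∑ i ∈ range n, ∑ π ∈ P, (K ^ (i + 1)) a π * rowP (K ^ (n - i)) P π
      = ∑ c, K a c * ∑ i ∈ range n, ∑ π ∈ P, (K ^ i) c π * rowP (K ^ (n - i)) P π := by
  calc ∑ i ∈ range n, ∑ π ∈ P, (K ^ (i + 1)) a π * rowP (K ^ (n - i)) P π
      = ∑ i ∈ range n, ∑ π ∈ P, ∑ c, K a c * ((K ^ i) c π * rowP (K ^ (n - i)) P π) := by
        refine Finset.sum_congr rfl fun i _ => Finset.sum_congr rfl fun π _ => ?_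
        rw [pow_succ', Matrix.mul_apply, Finset.sum_mul]
        exact Finset.sum_congr rfl fun c _ => mul_assoc _ _ _
    _ = ∑ i ∈ range n, ∑ c, ∑ π ∈ P, K a c * ((K ^ i) c π * rowP (K ^ (n - i)) P π) :=
        Finset.sum_congr rfl fun i _ => Finset.sum_comm
    _ = ∑ c, ∑ i ∈ range n, ∑ π ∈ P, K a c * ((K ^ i) c π * rowP (K ^ (n - i)) P π) :=
        Finset.sum_comm
    _ = ∑ c, K a c * ∑ i ∈ range n, ∑ π ∈ P, (K ^ i) c π * rowP (K ^ (n - i)) P π := by
        simp only [Finset.mul_sum]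

/-- Entrywise, the powers of the killed matrix lie between `0` and the powers of `K`. -/
theorem kl_kill_pow [Fintype S] [DecidableEq S] (K : Matrix S S ℝ) (hK0 : ∀ a b, 0 ≤ K a b) (P : Finset S) :
    ∀ (i : ℕ) (a b : S), 0 ≤ (killM K P ^ i) a b ∧ (killM K P ^ i) a b ≤ (K ^ i) a b := by
  intro i
  induction i with
  | zero =>
    intro a b
    rw [pow_zero, pow_zero]
    refine ⟨?_, le_rfl⟩
    rw [Matrix.one_apply]
    split_ifs <;> norm_num
  | succ i ih =>
    intro a b
    rw [pow_succ', pow_succ', Matrix.mul_apply, Matrix.mul_apply]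
    constructor
    · exact Finset.sum_nonneg fun c _ => mul_nonneg (kl_kill_nonneg K hK0 P a c) (ih c b).1
    · exact Finset.sum_le_sum fun c _ =>
        mul_le_mul (kl_kill_le K hK0 P a c) (ih c b).2 (ih c b).1 (hK0 a c)

/-- The telescope, in inequality form. -/
theorem kl_telescope [Fintype S] [DecidableEq S] (K : Matrix S S ℝ) (hK0 : ∀ a b, 0 ≤ K a b) (P : Finset S) :
    ∀ (n : ℕ) (a : S),
      rowP (K ^ n) P a
          - (1 / 2 : ℝ) * ∑ i ∈ range n, ∑ π ∈ P, (K ^ i) a π * rowP (K ^ (n - i)) P π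
        ≤ rowP (killM K P ^ n) P a := by
  intro n
  induction n with
  | zero =>
    intro a
    rw [pow_zero, pow_zero, Finset.range_zero, Finset.sum_empty, mul_zero, sub_zero]
  | succ n ih =>
    intro a
    have hA : rowP (killM K P ^ (n + 1)) P a
        = ∑ c, killM K P a c * rowP (killM K P ^ n) P c := by
      rw [pow_succ', kl_rowP_mul]
    have hKs : rowP (K ^ (n + 1)) P a = ∑ c, K a c * rowP (K ^ n) P c := by
      rw [pow_succ', kl_rowP_mul]
    have hG : ∀ c, 0 ≤ ∑ i ∈ range n, ∑ π ∈ P, (K ^ i) c π * rowP (K ^ (n - i)) P π :=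
      fun c => Finset.sum_nonneg fun i _ => Finset.sum_nonneg fun π _ =>
        mul_nonneg (kl_pow_nonneg K hK0 i c π) (kl_rowP_nonneg K hK0 P (n - i) π)
    -- the induction hypothesis, multiplied by the killed row and summed
    have h2 : ∑ c, killM K P a c * (rowP (K ^ n) P c
          - (1 / 2 : ℝ) * ∑ i ∈ range n, ∑ π ∈ P, (K ^ i) c π * rowP (K ^ (n - i)) P π)
        ≤ rowP (killM K P ^ (n + 1)) P a := by
      rw [hA]
      exact Finset.sum_le_sum fun c _ =>
        mul_le_mul_of_nonneg_left (ih c) (kl_kill_nonneg K hK0 P a c)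
    -- the first part
    have h3 : ∑ c, killM K P a c * rowP (K ^ n) P c
        = (if a ∈ P then (1 / 2 : ℝ) else 1) * rowP (K ^ (n + 1)) P a := by
      rw [hKs, Finset.mul_sum]
      refine Finset.sum_congr rfl fun c _ => ?_
      rw [kl_kill_apply, mul_assoc]
    -- the second part
    have h4 : ∑ c, killM K P a c
          * ∑ i ∈ range n, ∑ π ∈ P, (K ^ i) c π * rowP (K ^ (n - i)) P π
        ≤ ∑ i ∈ range n, ∑ π ∈ P, (K ^ (i + 1)) a π * rowP (K ^ (n - i)) P π := by
      rw [kl_shift]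
      exact Finset.sum_le_sum fun c _ =>
        mul_le_mul_of_nonneg_right (kl_kill_le K hK0 P a c) (hG c)
    have h5 : ∑ c, killM K P a c * (rowP (K ^ n) P c
          - (1 / 2 : ℝ) * ∑ i ∈ range n, ∑ π ∈ P, (K ^ i) c π * rowP (K ^ (n - i)) P π)
        = ∑ c, killM K P a c * rowP (K ^ n) P c
          - (1 / 2 : ℝ) * ∑ c, killM K P a c
            * ∑ i ∈ range n, ∑ π ∈ P, (K ^ i) c π * rowP (K ^ (n - i)) P π := by
      rw [Finset.mul_sum, ← Finset.sum_sub_distrib]
      refine Finset.sum_congr rfl fun c _ => ?_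
      ring
    -- the target sum
    have h6 : ∑ i ∈ range (n + 1), ∑ π ∈ P, (K ^ i) a π * rowP (K ^ (n + 1 - i)) P π
        = ∑ i ∈ range n, ∑ π ∈ P, (K ^ (i + 1)) a π * rowP (K ^ (n - i)) P π
          + (if a ∈ P then rowP (K ^ (n + 1)) P a else 0) := by
      rw [Finset.sum_range_succ', pow_zero, kl_zero_term, Nat.sub_zero]
      congr 1
      refine Finset.sum_congr rfl fun i _ => Finset.sum_congr rfl fun π _ => ?_
      rw [Nat.add_sub_add_right]
    rw [h6]
    rw [h5, h3] at h2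
    by_cases ha : a ∈ P
    · rw [if_pos ha] at h2 ⊢
      linarith
    · rw [if_neg ha] at h2 ⊢
      linarith

/-- Before time `m0 + 1` the chain visits `P` at most once, in expectation. -/
theorem kl_visits [Fintype S] [DecidableEq S] (K : Matrix S S ℝ) (hK0 : ∀ a b, 0 ≤ K a b) (hK1 : ∀ a, ∑ b, K a b = 1)
    (P : Finset S) (m0 : ℕ)
    (hgap : ∀ a ∈ P, ∀ s, 1 ≤ s → s ≤ m0 → ∑ b ∈ P, (K ^ s) a b = 0) :
    ∀ (m : ℕ), m ≤ m0 + 1 → ∀ a : S, ∑ i ∈ range m, rowP (K ^ i) P a ≤ 1 := by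
  intro m
  induction m with
  | zero =>
    intro _ a
    rw [Finset.range_zero, Finset.sum_empty]
    exact zero_le_one
  | succ m ih =>
    intro hm a
    rw [Finset.sum_range_succ', pow_zero, kl_rowP_one]
    by_cases ha : a ∈ P
    · rw [if_pos ha]
      have hz : ∑ i ∈ range m, rowP (K ^ (i + 1)) P a = 0 := by
        refine Finset.sum_eq_zero fun i hi => ?_
        have hi' : i < m := Finset.mem_range.1 hi
        exact hgap a ha (i + 1) (by omega) (by omega)
      rw [hz, zero_add]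
    · rw [if_neg ha, add_zero]
      have hstep : ∑ i ∈ range m, rowP (K ^ (i + 1)) P a
          = ∑ c, K a c * ∑ i ∈ range m, rowP (K ^ i) P c := by
        calc ∑ i ∈ range m, rowP (K ^ (i + 1)) P a
            = ∑ i ∈ range m, ∑ c, K a c * rowP (K ^ i) P c := by
              refine Finset.sum_congr rfl fun i _ => ?_
              rw [pow_succ', kl_rowP_mul]
          _ = ∑ c, ∑ i ∈ range m, K a c * rowP (K ^ i) P c := Finset.sum_comm
          _ = ∑ c, K a c * ∑ i ∈ range m, rowP (K ^ i) P c := by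
              simp only [Finset.mul_sum]
      rw [hstep]
      calc ∑ c, K a c * ∑ i ∈ range m, rowP (K ^ i) P c
          ≤ ∑ c, K a c * 1 := Finset.sum_le_sum fun c _ =>
            mul_le_mul_of_nonneg_left (ih (by omega) c) (hK0 a c)
        _ = 1 := by
            simp only [mul_one]
            exact hK1 a

/-- Pool leaf CV8. -/
theorem killed_lower {S : Type*} [Fintype S] [DecidableEq S] (K : Matrix S S ℝ)
    (hK0 : ∀ a b, 0 ≤ K a b) (hK1 : ∀ a, ∑ b, K a b = 1)
    (P : Finset S) (Gd : S → Prop) (hGd : ∀ a b, Gd a → K a b ≠ 0 → Gd b) (hPG : ∀ a ∈ P, Gd a)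
    (m0 s1 N : ℕ) (α β γ : ℝ) (hα : 0 ≤ α) (hβ : 0 ≤ β)
    (hgap : ∀ a ∈ P, ∀ s, 1 ≤ s → s ≤ m0 → ∑ b ∈ P, (K ^ s) a b = 0)
    (hlate : ∀ a, Gd a → ∀ s, m0 ≤ s → ∑ b ∈ P, (K ^ s) a b ≤ β)
    (hmix : ∀ a ∈ P, ∀ s, s1 ≤ s → ∑ b ∈ P, (K ^ s) a b ≤ α)
    (hN : s1 + m0 ≤ N) (σ : S) (hσ : Gd σ) (hγ : γ ≤ ∑ b ∈ P, (K ^ N) σ b) :
    γ - α / 2 - N * β ^ 2 / 2
      ≤ ∑ b ∈ P, ((Matrix.of fun a b => (if a ∈ P then (1 / 2 : ℝ) else 1) * K a b) ^ N) σ b := by
  have _hunused := hGd
  have htel := kl_telescope K hK0 P N σ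
  -- termwise bound of the double sum
  have hterm : ∀ i ∈ range N, ∑ π ∈ P, (K ^ i) σ π * rowP (K ^ (N - i)) P π
      ≤ α * (if i ≤ m0 then rowP (K ^ i) P σ else 0) + β ^ 2 := by
    intro i hi
    have hiN : i < N := Finset.mem_range.1 hi
    by_cases him : i ≤ m0
    · rw [if_pos him]
      have h1 : ∑ π ∈ P, (K ^ i) σ π * rowP (K ^ (N - i)) P π ≤ ∑ π ∈ P, (K ^ i) σ π * α :=
        Finset.sum_le_sum fun π hπ =>
          mul_le_mul_of_nonneg_left (hmix π hπ (N - i) (by omega)) (kl_pow_nonneg K hK0 i σ π)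
      have h2 : ∑ π ∈ P, (K ^ i) σ π * α = α * rowP (K ^ i) P σ := by
        unfold rowP
        rw [← Finset.sum_mul, mul_comm]
      have h3 : (0 : ℝ) ≤ β ^ 2 := sq_nonneg β
      linarith
    · rw [if_neg him, mul_zero, zero_add]
      have hπ : ∀ π ∈ P, rowP (K ^ (N - i)) P π ≤ β := by
        intro π hπ
        by_cases hs : N - i ≤ m0
        · have h0 := hgap π hπ (N - i) (by omega) hs
          have : rowP (K ^ (N - i)) P π = 0 := h0
          rw [this]
          exact hβ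
        · exact hlate π (hPG π hπ) (N - i) (by omega)
      have h1 : ∑ π ∈ P, (K ^ i) σ π * rowP (K ^ (N - i)) P π ≤ ∑ π ∈ P, (K ^ i) σ π * β :=
        Finset.sum_le_sum fun π hπ' =>
          mul_le_mul_of_nonneg_left (hπ π hπ') (kl_pow_nonneg K hK0 i σ π)
      have h2 : ∑ π ∈ P, (K ^ i) σ π * β = rowP (K ^ i) P σ * β := by
        unfold rowP
        rw [← Finset.sum_mul]
      have h3 : rowP (K ^ i) P σ ≤ β := hlate σ hσ i (by omega)
      have h4 : rowP (K ^ i) P σ * β ≤ β * β := mul_le_mul_of_nonneg_right h3 hβ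
      have h5 : β * β = β ^ 2 := (sq β).symm
      linarith
  -- the early visits
  have hearly : ∑ i ∈ range N, (if i ≤ m0 then rowP (K ^ i) P σ else 0) ≤ 1 := by
    rw [← Finset.sum_filter]
    have hsub : (range N).filter (fun i => i ≤ m0) ⊆ range (m0 + 1) := by
      intro i hi
      have := (Finset.mem_filter.1 hi).2
      exact Finset.mem_range.2 (by omega)
    calc ∑ i ∈ (range N).filter (fun i => i ≤ m0), rowP (K ^ i) P σ
        ≤ ∑ i ∈ range (m0 + 1), rowP (K ^ i) P σ :=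
          Finset.sum_le_sum_of_subset_of_nonneg hsub
            fun i _ _ => kl_rowP_nonneg K hK0 P i σ
      _ ≤ 1 := kl_visits K hK0 hK1 P m0 hgap (m0 + 1) le_rfl σ
  have hD : ∑ i ∈ range N, ∑ π ∈ P, (K ^ i) σ π * rowP (K ^ (N - i)) P π
      ≤ α + N * β ^ 2 := by
    calc ∑ i ∈ range N, ∑ π ∈ P, (K ^ i) σ π * rowP (K ^ (N - i)) P π
        ≤ ∑ i ∈ range N, (α * (if i ≤ m0 then rowP (K ^ i) P σ else 0) + β ^ 2) :=
          Finset.sum_le_sum hterm
      _ = α * ∑ i ∈ range N, (if i ≤ m0 then rowP (K ^ i) P σ else 0) + N * β ^ 2 := by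
          rw [Finset.sum_add_distrib, ← Finset.mul_sum, Finset.sum_const, Finset.card_range,
            nsmul_eq_mul]
      _ ≤ α * 1 + N * β ^ 2 := by
          have := mul_le_mul_of_nonneg_left hearly hα
          linarith
      _ = α + N * β ^ 2 := by rw [mul_one]
  have hγ' : γ ≤ rowP (K ^ N) P σ := hγ
  have hgoal : γ - α / 2 - N * β ^ 2 / 2 ≤ rowP (killM K P ^ N) P σ := by
    linarith
  exact hgoal

end Vale.Agent.Lib.P162.H51CV
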